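import Vale.Agent.P343.Lower
import Vale.Agent.P343.NoPoly

/-!
P343, question Q2 (Sakoda-Sipser): no polynomial bounds the cost of converting two-way, or even
one-way, nondeterministic finite automata into two-way deterministic ones.
-/

namespace Vale.Agent.Results.P343.SakodaSipser

open Vale.Agent.P343

theorem result :
    (¬ ∃ p : Polynomial ℝ, ∀ (α : Type) [Finite α] (A : TwoNFA α),
      ∃ B : TwoNFA α, B.Deterministic ∧ B.language = A.language ∧
        (B.size : ℝ) ≤ p.eval (A.size : ℝ)) ∧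
    (¬ ∃ p : Polynomial ℝ, ∀ (α : Type) [Finite α] (A : TwoNFA α), A.OneWay →
      ∃ B : TwoNFA α, B.Deterministic ∧ B.language = A.language ∧
        (B.size : ℝ) ≤ p.eval (A.size : ℝ)) ∧
    (∃ C : ℕ, ∀ L : ℕ, ∃ (α : Type) (_ : Finite α) (A : TwoNFA α),
      A.OneWay ∧ A.size ≤ C * (L + 1) ^ 4 ∧
      ∀ B : TwoNFA α, B.Deterministic → B.language = A.language → 2 ^ L ≤ B.size) := by
  have key : ¬ ∃ p : Polynomial ℝ, ∀ (α : Type) [Finite α] (A : TwoNFA α), A.OneWay →
      ∃ B : TwoNFA α, B.Deterministic ∧ B.language = A.language ∧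
        (B.size : ℝ) ≤ p.eval (A.size : ℝ) := by
    rintro ⟨p, hp⟩
    obtain ⟨C, hC⟩ := exponential_gap
    refine no_poly C p fun L => ?_
    obtain ⟨α, hα, A, hone, hsize, hlow⟩ := hC L
    obtain ⟨B, hB, hBA, hle⟩ := hp α A hone
    refine ⟨A.size, hsize, le_trans ?_ hle⟩
    exact_mod_cast hlow B hB hBA
  refine ⟨fun ⟨p, hp⟩ => key ⟨p, fun α _ A _ => hp α A⟩, key, exponential_gap⟩

end Vale.Agent.Results.P343.SakodaSipser
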